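import Vale.Agent.P366.H474.L.B
import Vale.Agent.P366.H474.W.C

/-! Kerr-Schild metrics with a general null covector field, a general slice: the fluxes. -/

open MeasureTheory Metric Filter Topology Set
open scoped ContDiff ENNReal

noncomputable section
namespace Vale.Agent.P366.H474.L

open Vale.Agent.P366 (pd E sphM flux)
open Vale.Agent.P366.H353.N (kd hs SI om SI_congr)
open Vale.Agent.P366.KSN (BO far_open BO_th)
open Vale.Agent.P366.KSN.X5 (DP)
open Vale.Agent.P366.Kerr (NullCone Psi pt sp indG indK lapse tng con sgn ksL IsKS IsGraph IsSliceL)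
open Vale.Agent.P366.KSL (hh Up Zf)
open Vale.Agent.P366.H474.W (flux_congr flux_sub flux_neg flux_curl flux_sphInt)

variable {n : ℕ} {l : Fin (n + 1) → E (n + 1) → ℝ} {V : E (n + 1) → ℝ} {f : E n → ℝ}
  {D : Stmt.Exterior n} {R q : ℝ} {y : E n}

/-- the energy flux field of the data -/
def Ef (D : Stmt.Exterior n) (i : Fin n) (y : E n) : ℝ :=
  (∑ j, (Stmt.pd j (fun z => D.g z i j) y - Stmt.pd i (fun z => D.g z j j) y)) / 2

lemma Ef_cont (D : Stmt.Exterior n) (i : Fin n) : Continuous (Ef D i) := by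
  have hc : ∀ a b c, Continuous (Stmt.pd a (fun z => D.g z b c)) := by
    intro a b c
    have e : Stmt.pd a (fun z => D.g z b c) = pd a (fun z => D.g z b c) := by
      funext y
      exact KSN.X2.stmt_pd (((D.smooth b c).1.contDiffAt).differentiableAt (by simp)) a
    rw [e]
    exact continuous_iff_continuousAt.2 fun y => KSN.pd_contAt (D.smooth b c).1.contDiffAt a
  exact (continuous_finsetSum _ fun j _ => (hc _ _ _).sub (hc _ _ _)).div_const 2

lemma momT_cont (hd : (Stmt.mat D.g y).det ≠ 0) (i j : Fin n) :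
    ContinuousAt (fun y => Stmt.momT D.g D.K y i j) y := by
  have cK : ∀ i j, ContinuousAt (fun y => D.K y i j) y := fun i j =>
    (D.smooth i j).2.continuous.continuousAt
  have cg : ∀ i j, ContinuousAt (fun y => D.g y i j) y := fun i j =>
    (D.smooth i j).1.continuous.continuousAt
  have cu : ∀ i j, ContinuousAt (fun y => Stmt.up D.g i j y) y := fun i j =>
    (Vale.Agent.P366.Bridge.up_smooth (fun i j => (D.smooth i j).1) hd i j).continuousAt
  refine (cK i j).sub (ContinuousAt.mul ?_ (cg i j))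
  exact tendsto_finsetSum _ fun i _ => tendsto_finsetSum _ fun j _ => (cu i j).mul (cK i j)

/-- the antisymmetric tensor of the momentum flux -/
def Af (l : Fin (n + 1) → E (n + 1) → ℝ) (V : E (n + 1) → ℝ) (f : E n → ℝ) (j i k : Fin n)
    (y : E n) : ℝ :=
  (kd i j * hp l V f 0 k.succ y - kd k j * hp l V f 0 i.succ y) / 2 +
    (kd k j * pd i f y - kd i j * pd k f y)

lemma Up_zero (i : Fin n) : Up l V 0 i.succ 0 (pt (f y) y) =
    (dh l V f i.succ 0 0 y - ∑ j : Fin n, dh l V f j.succ i.succ j.succ y) / 2 := by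
  unfold Up kd
  rw [if_pos rfl, if_neg (Fin.succ_ne_zero i), Fin.sum_univ_succ]
  simp only [sgn0, sgns]
  rw [hh_symm i.succ 0]
  unfold dh
  ring_nf

lemma Up_succ (i j : Fin n) : Up l V 0 i.succ j.succ (pt (f y) y) =
    (-dh l V f 0 i.succ j.succ y + dh l V f i.succ 0 j.succ y + kd i j * (dh l V f 0 0 0 y -
      ∑ k : Fin n, dh l V f k.succ 0 k.succ y)) / 2 := by
  have e1 : kd i.succ j.succ = kd i j := by
    unfold kd
    simp only [Fin.succ_inj]
  have e2 : kd (0 : Fin (n + 1)) j.succ = 0 := by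
    unfold kd
    rw [if_neg (Fin.succ_ne_zero j).symm]
  have e3 : ∑ d, sgn (0 : Fin (n + 1)) * sgn d * pd d (hh l V 0 d) (pt (f y) y) =
      dh l V f 0 0 0 y - ∑ k : Fin n, dh l V f k.succ 0 k.succ y := by
    rw [Fin.sum_univ_succ]
    simp only [sgn0, sgns]
    unfold dh
    rw [show ∑ i : Fin n, -1 * 1 * pd i.succ (hh l V 0 i.succ) (pt (f y) y) =
      -∑ i : Fin n, pd i.succ (hh l V 0 i.succ) (pt (f y) y) by
        rw [← Finset.sum_neg_distrib]; exact Finset.sum_congr rfl fun i _ => by ring]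
    ring
  unfold Up
  rw [e1, e2, e3]
  simp only [sgn0, sgns]
  unfold dh
  ring

namespace FarG

variable (h : FarG l V f D R)
include h

lemma dh_tr (hy : R < ‖y‖) (c : Fin (n + 1)) :
    dh l V f c 0 0 y = ∑ k : Fin n, dh l V f c k.succ k.succ y := pd_hh_tr (h.ks y hy) c

lemma Up_cd (hy : R < ‖y‖) (a c b : Fin (n + 1)) :
    ContDiffAt ℝ ∞ (fun y => Up l V a c b (pt (f y) y)) y := by
  have h1 : ContDiffAt ℝ ∞ (fun y => sgn a * sgn c * dh l V f a c b y) y :=
    contDiffAt_const.mul (h.dh_cd hy a c b)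
  have h2 : ContDiffAt ℝ ∞ (fun y => sgn a * sgn c * dh l V f c a b y) y :=
    contDiffAt_const.mul (h.dh_cd hy c a b)
  have h3 : ContDiffAt ℝ ∞ (fun y => kd a b * (∑ d, sgn c * sgn d * dh l V f d c d y)) y :=
    contDiffAt_const.mul (ContDiffAt.sum fun d _ => contDiffAt_const.mul (h.dh_cd hy d c d))
  have h4 : ContDiffAt ℝ ∞ (fun y => kd c b * (∑ d, sgn a * sgn d * dh l V f d a d y)) y :=
    contDiffAt_const.mul (ContDiffAt.sum fun d _ => contDiffAt_const.mul (h.dh_cd hy d a d))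
  exact (((h1.sub h2).sub h3).add h4).div_const 2

lemma Zf_cd (hy : R < ‖y‖) (b : Fin (n + 1)) (i : Fin n) : ContDiffAt ℝ ∞ (Zf l V f b i) y := by
  have h1 : ContDiffAt ℝ ∞ (fun y => ∑ j : Fin n, pd j f y *
      Up l V j.succ i.succ b (pt (f y) y)) y :=
    ContDiffAt.sum fun j _ => (KSN.pd_contDiffAt (h.smf y hy) j).mul (h.Up_cd hy _ _ _)
  exact (h.Up_cd hy 0 i.succ b).sub h1

lemma Af_cd (hy : R < ‖y‖) (j i k : Fin n) : ContDiffAt ℝ ∞ (Af l V f j i k) y := by
  have hf := h.smf y hy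
  have h1 : ContDiffAt ℝ ∞ (fun y => (kd i j * hp l V f 0 k.succ y -
      kd k j * hp l V f 0 i.succ y) / 2) y :=
    ((contDiffAt_const.mul (h.hp_cd hy _ _)).sub
      (contDiffAt_const.mul (h.hp_cd hy _ _))).div_const 2
  have h2 : ContDiffAt ℝ ∞ (fun y => kd k j * pd i f y - kd i j * pd k f y) y :=
    (contDiffAt_const.mul (KSN.pd_contDiffAt hf i)).sub
      (contDiffAt_const.mul (KSN.pd_contDiffAt hf k))
  exact h1.add h2

lemma curl_Af (hy : R < ‖y‖) (j i : Fin n) : ∑ k, pd k (Af l V f j i k) y =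
    (kd i j * (∑ k : Fin n, pd k (hp l V f 0 k.succ) y) - pd j (hp l V f 0 i.succ) y) / 2 +
      (hs f j i y - kd i j * ∑ k, hs f k k y) := by
  have hf := h.smf y hy
  have d1 : ∀ k : Fin n, DifferentiableAt ℝ (hp l V f 0 k.succ) y := fun k =>
    (h.hp_cd hy _ _).differentiableAt (by simp)
  have d2 : ∀ k : Fin n, DifferentiableAt ℝ (pd k f) y := fun k =>
    (KSN.pd_contDiffAt hf k).differentiableAt (by simp)
  have e1 : ∀ k, pd k (Af l V f j i k) y = (1 / 2) * (kd i j * pd k (hp l V f 0 k.succ) y -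
      kd k j * pd k (hp l V f 0 i.succ) y) + (kd k j * hs f k i y - kd i j * hs f k k y) := by
    intro k
    have h1 : DP k (fun z => (1 / 2) * (kd i j * hp l V f 0 k.succ z -
        kd k j * hp l V f 0 i.succ z) + (kd k j * pd i f z - kd i j * pd k f z)) _ y :=
      ((((DP.of (d1 k)).cmul (kd i j)).sub ((DP.of (d1 i)).cmul (kd k j))).cmul (1 / 2)).add
        (((DP.of (d2 i)).cmul (kd k j)).sub ((DP.of (d2 k)).cmul (kd i j)))
    have h2 : Af l V f j i k = fun z => (1 / 2) * (kd i j * hp l V f 0 k.succ z -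
        kd k j * hp l V f 0 i.succ z) + (kd k j * pd i f z - kd i j * pd k f z) := by
      funext z
      unfold Af
      ring
    rw [h2, h1.2]
    rfl
  simp only [e1]
  rw [Finset.sum_add_distrib, ← Finset.mul_sum, Finset.sum_sub_distrib, Finset.sum_sub_distrib,
    ← Finset.mul_sum, ← Finset.mul_sum]
  have e2 : ∑ k, kd k j * pd k (hp l V f 0 i.succ) y = pd j (hp l V f 0 i.succ) y := by simp [kd]
  have e3 : ∑ k, kd k j * hs f k i y = hs f j i y := by simp [kd]
  rw [e2, e3]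
  ring

variable (o : Ord l V f q)
include o

/-- the energy flux field of the data is minus the field of the superpotential -/
lemma BO_E (i : Fin n) : BO (2 * q + 1) fun y => Ef D i y + Zf l V f 0 i y := by
  have h1 : BO (2 * q + 1) fun y => (∑ j, ((Stmt.pd j (fun z => D.g z i j) y -
      dh l V f j.succ i.succ j.succ y) - (Stmt.pd i (fun z => D.g z j j) y -
      dh l V f i.succ j.succ j.succ y))) / 2 :=
    (BO.sum _ fun j => (h.BO_dg_sub o j i j).sub (h.BO_dg_sub o i j j)).div_const 2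
  refine (h1.add (BO_Zf_sub o 0 i)).congr (R := R) fun y hy => ?_
  rw [Up_zero, h.dh_tr hy]
  unfold Ef
  simp only [Finset.sum_sub_distrib]
  ring

/-- the momentum flux field of the data -/
lemma BO_P (j i : Fin n) : BO (2 * q + 1) fun y => Stmt.momT D.g D.K y j i + Zf l V f j.succ i y -
    ∑ k, pd k (Af l V f j i k) y := by
  have h1 : BO (2 * q + 1) fun y => kd i j * (∑ k : Fin n, (pd k (hp l V f 0 k.succ) y -
      dh l V f k.succ 0 k.succ y)) :=
    (BO.sum _ fun k => h.BO_pd_hp_sub o k 0 k.succ).cmul _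
  have h2 := h.BO_pd_hp_sub o j 0 i.succ
  refine (((h.BO_momT_sub o j i).add (BO_Zf_sub o j.succ i)).sub
    ((h1.sub h2).div_const 2)).congr (R := R) fun y hy => ?_
  rw [Up_succ, h.curl_Af hy]
  have e0 : ∑ k, Mf l V f k k y = (∑ k, hs f k k y) -
      (∑ k : Fin n, dh l V f k.succ 0 k.succ y) + dh l V f 0 0 0 y / 2 := by
    rw [h.dh_tr hy 0, Finset.sum_div, ← Finset.sum_sub_distrib, ← Finset.sum_add_distrib]
    refine Finset.sum_congr rfl fun k _ => ?_
    unfold Mf CL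
    rw [sgn0, dh_symm k.succ k.succ 0]
    ring
  have e1 : kd j i = kd i j := by unfold kd; simp only [eq_comm]
  unfold Pf
  rw [e0, e1]
  unfold Mf CL
  rw [sgn0, dh_symm j.succ i.succ 0, dh_symm i.succ j.succ 0, dh_symm 0 j.succ i.succ,
    Finset.sum_sub_distrib]
  ring

/-- **the flux of the energy part of the superpotential** -/
theorem flux_zero [hn : Fact (3 ≤ n)] (hq : (n : ℝ) / 2 - 1 < q) {m : ℝ} (hm : D.IsEnergy m) :
    Tendsto (flux (Zf l V f 0)) atTop (𝓝 (-(((n : ℝ) - 1) * om n * m))) := by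
  have hq2 : (n : ℝ) - 1 < 2 * q + 1 := by linarith only [hq]
  have hE : BO (2 * q + 1) fun y => ∑ i, (Zf l V f 0 i y - -Ef D i y) * (y i / ‖y‖) :=
    BO.sum _ fun i => ((h.BO_E o i).congr (R := 0) fun y _ => by ring).mulb (BO_th i)
  have h1 := Tendsto.const_mul (((n : ℝ) - 1) * om n) hm
  have h2 := (hE.tendsto hq2).sub h1
  rw [zero_sub] at h2
  refine h2.congr' ?_
  filter_upwards [eventually_gt_atTop R, eventually_gt_atTop 0] with r hr hr0
  have hy : ∀ y : E n, ‖y‖ = r → R < ‖y‖ := fun y hy => by rw [hy]; exact hr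
  have e1 : r ^ (n - 1) * SI (fun θ => (fun y : E n => ∑ i, (Zf l V f 0 i y - -Ef D i y) *
      (y i / ‖y‖)) (r • θ)) = flux (fun i y => Zf l V f 0 i y - -Ef D i y) r := rfl
  rw [e1, ← KSN.X5.flx_eq, ← flux_sphInt, flux_sub (W := Zf l V f 0) (W' := fun i y => -Ef D i y) hr0
    (fun i y hyr => (h.Zf_cd (hy y hyr) 0 i).continuousAt)
    (fun i y _ => (Ef_cont D i).neg.continuousAt), flux_neg]
  have e2 : flux (fun i x => (∑ j, (Stmt.pd j (fun y => D.g y i j) x -
      Stmt.pd i (fun y => D.g y j j) x)) / 2) r = flux (fun i y => Ef D i y) r := rfl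
  rw [e2]
  ring

/-- **the flux of the momentum part of the superpotential** -/
theorem flux_succ [hn : Fact (3 ≤ n)] (hq : (n : ℝ) / 2 - 1 < q) (hR : 0 ≤ R) {P : Fin n → ℝ}
    (hP : D.IsMomentum P) (j : Fin n) :
    Tendsto (flux (Zf l V f j.succ)) atTop (𝓝 (-(((n : ℝ) - 1) * om n * P j))) := by
  have hq2 : (n : ℝ) - 1 < 2 * q + 1 := by linarith only [hq]
  have : Nontrivial (E n) := by
    have : Nonempty (Fin n) := ⟨⟨0, by have := hn.out; omega⟩⟩
    infer_instance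
  have hE : BO (2 * q + 1) fun y => ∑ i, ((Stmt.momT D.g D.K y j i + Zf l V f j.succ i y) -
      ∑ k, pd k (Af l V f j i k) y) * (y i / ‖y‖) := BO.sum _ fun i => (h.BO_P o j i).mulb (BO_th i)
  have h1 := Tendsto.const_mul (((n : ℝ) - 1) * om n) (hP j)
  have h2 := (hE.tendsto hq2).sub h1
  rw [zero_sub] at h2
  refine h2.congr' ?_
  filter_upwards [eventually_gt_atTop R, eventually_gt_atTop 0] with r hr hr0
  have hy : ∀ y : E n, ‖y‖ = r → R < ‖y‖ := fun y hy => by rw [hy]; exact hr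
  have cm : ∀ i (y : E n), ‖y‖ = r → ContinuousAt (fun y => Stmt.momT D.g D.K y j i) y :=
    fun i y hyr => momT_cont (h.det_ne (hy y hyr)) j i
  have cz : ∀ i (y : E n), ‖y‖ = r → ContinuousAt (Zf l V f j.succ i) y :=
    fun i y hyr => (h.Zf_cd (hy y hyr) j.succ i).continuousAt
  have cc : ∀ i (y : E n), ‖y‖ = r → ContinuousAt (fun y => ∑ k, pd k (Af l V f j i k) y) y :=
    fun i y hyr => tendsto_finsetSum _ fun k _ => KSN.pd_contAt (h.Af_cd (hy y hyr) j i k) k
  have e1 : r ^ (n - 1) * SI (fun θ => (fun y : E n => ∑ i, ((Stmt.momT D.g D.K y j i +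
      Zf l V f j.succ i y) - ∑ k, pd k (Af l V f j i k) y) * (y i / ‖y‖)) (r • θ)) =
      flux (fun i y => (Stmt.momT D.g D.K y j i + Zf l V f j.succ i y) -
      ∑ k, pd k (Af l V f j i k) y) r := rfl
  rw [e1, ← KSN.X5.flx_eq, ← flux_sphInt, flux_sub (W := fun i y => Stmt.momT D.g D.K y j i +
    Zf l V f j.succ i y) (W' := fun i y => ∑ k, pd k (Af l V f j i k) y) hr0
    (fun i y hyr => (cm i y hyr).add (cz i y hyr)) (fun i y hyr => cc i y hyr)]
  have hcurl := flux_curl hR (A := Af l V f j) (fun i k y hy => h.Af_cd hy j i k)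
    (fun i k y _ => by unfold Af; ring) hr
  rw [hcurl, sub_zero]
  have e3 : flux (fun i y => Stmt.momT D.g D.K y j i + Zf l V f j.succ i y) r =
      flux (fun i y => Stmt.momT D.g D.K y j i - -Zf l V f j.succ i y) r :=
    flux_congr hr0 fun i y _ => by ring
  rw [e3, flux_sub (W := fun i y => Stmt.momT D.g D.K y j i) (W' := fun i y => -Zf l V f j.succ i y)
    hr0 (fun i y hyr => cm i y hyr) (fun i y hyr => (cz i y hyr).neg), flux_neg]
  ring

end FarG

/-! ### the statements of the stubs -/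

/-- the asymptotic flatness of the spacetime along the slice (copy of `KSL.AF4`) -/
def AF4 (l : Fin (n + 1) → E (n + 1) → ℝ) (V : E (n + 1) → ℝ) (f : E n → ℝ) : Prop :=
  ∃ q B R : ℝ, (n : ℝ) / 2 - 1 < q ∧ 1 ≤ R ∧ ∀ y : E n, R < ‖y‖ →
    (∀ a b, |hh l V a b (pt (f y) y)| ≤ B * ‖y‖ ^ (-q)) ∧
    (∀ a b c, |pd c (hh l V a b) (pt (f y) y)| ≤ B * ‖y‖ ^ (-(q + 1))) ∧
    (∀ i, |pd i f y| ≤ B * ‖y‖ ^ (-q)) ∧ ∀ i j, |hs f i j y| ≤ B * ‖y‖ ^ (-(q + 1))

lemma BO_of {a B R : ℝ} {F : E n → ℝ} (hR : 1 ≤ R) (h : ∀ y : E n, R < ‖y‖ →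
    |F y| ≤ B * ‖y‖ ^ (-a)) : BO a F := by
  refine ⟨|B|, R, abs_nonneg _, hR, fun y hy => (h y hy).trans ?_⟩
  exact mul_le_mul_of_nonneg_right (le_abs_self B) (Real.rpow_nonneg (norm_nonneg _) _)

lemma AF4.ord [hn : Fact (3 ≤ n)] (h : AF4 l V f) : ∃ q, (n : ℝ) / 2 - 1 < q ∧ Ord l V f q := by
  obtain ⟨q, B, R, hq, hR, h⟩ := h
  have h3 : (3 : ℝ) ≤ n := by exact_mod_cast hn.out
  exact ⟨q, hq, by linarith only [hq, h3], fun a b => BO_of hR fun y hy => (h y hy).1 a b,
    fun c a b => BO_of hR fun y hy => (h y hy).2.1 a b c,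
    fun i => BO_of hR fun y hy => (h y hy).2.2.1 i,
    fun i j => BO_of hR fun y hy => (h y hy).2.2.2 i j⟩

lemma farG {C : NullCone n} (hS : IsSliceL C l V f D) : ∃ R, 0 ≤ R ∧ FarG l V f D R := by
  obtain ⟨R, hR⟩ := D.dom.2.2.2
  have hF : ∀ y : E n, |R| < ‖y‖ → 0 ≤ D.F y := fun y hy =>
    (hR y ((le_abs_self R).trans_lt hy)).le
  exact ⟨|R|, abs_nonneg _, fun y hy => hS.ks y (hF y hy), fun y hy => hS.smf y (hF y hy), hF,
    fun y hy => hS.met y (hF y hy), fun y hy => hS.sff y (hF y hy)⟩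

/-- [V6b] -/
theorem flux_zero {C : NullCone n} [Fact (3 ≤ n)] (hS : IsSliceL C l V f D) (h4 : AF4 l V f)
    {m : ℝ} (hm : D.IsEnergy m) :
    Tendsto (flux (Zf l V f 0)) atTop (𝓝 (-(((n : ℝ) - 1) * om n * m))) := by
  obtain ⟨q, hq, o⟩ := h4.ord
  obtain ⟨R, hR, h⟩ := farG hS
  exact h.flux_zero o hq hm

theorem flux_succ {C : NullCone n} [Fact (3 ≤ n)] (hS : IsSliceL C l V f D) (h4 : AF4 l V f)
    {P : Fin n → ℝ} (hP : D.IsMomentum P) (j : Fin n) :
    Tendsto (flux (Zf l V f j.succ)) atTop (𝓝 (-(((n : ℝ) - 1) * om n * P j))) := by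
  obtain ⟨q, hq, o⟩ := h4.ord
  obtain ⟨R, hR, h⟩ := farG hS
  exact h.flux_succ o hq hR hP j

end Vale.Agent.P366.H474.L
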