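import Vale.Agent.P366.H208.L.Int
import Vale.Agent.P366.H474.W.Curl
import Vale.Agent.P366.H896.W.Gr
import Vale.Agent.P366.H375.N.X2d

/-! Kerr-Schild metrics with a general null covector field, a general slice: pointwise formulas. -/

open MeasureTheory Metric Filter Topology Set
open scoped ContDiff ENNReal

noncomputable section
namespace Vale.Agent.P366.H474.L

open Vale.Agent.P366 (pd E sphM)
open Vale.Agent.P366.H353.N (kd hs)
open Vale.Agent.P366.Kerr (pt sp indG indK lapse tng con sgn ksL IsKS)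
open Vale.Agent.P366.KSL (hh Up Zf)

variable {n : ℕ} {l : Fin (n + 1) → E (n + 1) → ℝ} {V : E (n + 1) → ℝ} {f : E n → ℝ}
  {p : E (n + 1)} {y : E n}

lemma sgn0 : sgn (0 : Fin (n + 1)) = -1 := rfl
lemma sgns (i : Fin n) : sgn i.succ = 1 := by simp [sgn, Fin.succ_ne_zero]
lemma sgn_sq (a : Fin (n + 1)) : sgn a * sgn a = 1 := by
  unfold sgn
  split_ifs <;> norm_num

lemma hh_symm (a b : Fin (n + 1)) : hh l V a b = hh l V b a := by
  funext p
  unfold hh
  ring

lemma hh_cd (h : IsKS l V p) (a b : Fin (n + 1)) : ContDiffAt ℝ ∞ (hh l V a b) p :=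
  (h.smV.mul (h.sml a)).mul (h.sml b)

lemma null0 (h : IsKS l V p) : ∑ a, sgn a * (l a p * l a p) = 0 := by
  rw [← h.null.self_of_nhds]
  exact Finset.sum_congr rfl fun a _ => by ring

/-- the trace of `h` vanishes near the point -/
lemma hh_tr (h : IsKS l V p) : hh l V 0 0 =ᶠ[𝓝 p] fun q => ∑ k : Fin n, hh l V k.succ k.succ q := by
  filter_upwards [h.null] with q hq
  rw [Fin.sum_univ_succ] at hq
  simp only [sgn0, sgns, one_mul] at hq
  unfold hh
  have e : ∑ k : Fin n, V q * l k.succ q * l k.succ q = V q * ∑ k : Fin n, l k.succ q ^ 2 := by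
    rw [Finset.mul_sum]
    exact Finset.sum_congr rfl fun k _ => by ring
  rw [e]
  linear_combination (-V q) * hq

lemma pd_hh_tr (h : IsKS l V p) (c : Fin (n + 1)) :
    pd c (hh l V 0 0) p = ∑ k : Fin n, pd c (hh l V k.succ k.succ) p := by
  rw [Vale.Agent.P366.pd_congr (hh_tr h) c, Vale.Agent.P366.pd_sum _ (fun k _ =>
    (hh_cd h k.succ k.succ).differentiableAt (by simp)) c]

/-- the inverse metric -/
lemma up_ks (h : IsKS l V p) (a b : Fin (n + 1)) :
    Stmt.up (ksL l V) a b p = (if a = b then sgn a else 0) - sgn a * sgn b * hh l V a b p := by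
  have hn := null0 h
  have e : Stmt.mat (ksL l V) p * (Matrix.of fun a b => (if a = b then sgn a else 0) -
      sgn a * sgn b * hh l V a b p) = 1 := by
    ext a c
    rw [Matrix.mul_apply, Matrix.one_apply]
    have h1 : ∀ b, Stmt.mat (ksL l V) p a b * (Matrix.of fun a b =>
        (if a = b then sgn a else 0) - sgn a * sgn b * hh l V a b p) b c =
        (if a = b then sgn a * (if b = c then sgn b else 0) else 0) -
        (if a = b then sgn a * (V p * ((sgn b * l b p) * (sgn c * l c p))) else 0) +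
        (if b = c then V p * (l a p * l b p) * sgn b else 0) -
        V p * V p * l a p * (sgn c * l c p) * (sgn b * (l b p * l b p)) := by
      intro b
      rw [Matrix.of_apply]
      unfold Stmt.mat ksL hh
      split_ifs <;> ring
    simp only [h1, Finset.sum_add_distrib, Finset.sum_sub_distrib, ← Finset.mul_sum, hn,
      Finset.sum_ite_eq, Finset.sum_ite_eq', Finset.mem_univ, if_true]
    have h2 := sgn_sq a
    split_ifs with hac
    · subst hac
      linear_combination (1 - V p * l a p * (sgn a * l a p)) * h2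
    · linear_combination (-V p * l a p * (sgn c * l c p)) * h2
  unfold Stmt.up
  rw [Matrix.inv_eq_right_inv e, Matrix.of_apply]

lemma spd_ks (h : IsKS l V p) (c a b : Fin (n + 1)) :
    Stmt.pd c (fun q => ksL l V q a b) p = pd c (hh l V a b) p := by
  have d := (hh_cd h a b).differentiableAt (by simp)
  have e : (fun q => ksL l V q a b) = fun q => (if a = b then sgn a else 0) + hh l V a b q := rfl
  rw [e, ((T2.HP.const c (if a = b then sgn a else 0) p).add (T2.HP.of_diff d)).pd, zero_add,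
    KSN.X2.stmt_pd d]

/-- the Christoffel symbols -/
lemma chr_ks (h : IsKS l V p) (a b c : Fin (n + 1)) : Stmt.chr (ksL l V) a b c p =
    (sgn a * (pd b (hh l V c a) p + pd c (hh l V b a) p - pd a (hh l V b c) p) -
      ∑ d, sgn a * sgn d * hh l V a d p *
        (pd b (hh l V c d) p + pd c (hh l V b d) p - pd d (hh l V b c) p)) / 2 := by
  unfold Stmt.chr
  simp only [spd_ks h, up_ks h, sub_mul, Finset.sum_sub_distrib, ite_mul, zero_mul,
    Finset.sum_ite_eq, Finset.mem_univ, if_true]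

/-! ### the hypersurface -/

/-- the components of `h` along the graph -/
def hp (l : Fin (n + 1) → E (n + 1) → ℝ) (V : E (n + 1) → ℝ) (f : E n → ℝ) (a b : Fin (n + 1))
    (y : E n) : ℝ := hh l V a b (pt (f y) y)

/-- the derivatives of `h` along the graph -/
def dh (l : Fin (n + 1) → E (n + 1) → ℝ) (V : E (n + 1) → ℝ) (f : E n → ℝ)
    (c a b : Fin (n + 1)) (y : E n) : ℝ := pd c (hh l V a b) (pt (f y) y)

lemma hp_symm (a b : Fin (n + 1)) : hp l V f a b = hp l V f b a := by
  unfold hp
  rw [hh_symm]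

lemma dh_symm (c a b : Fin (n + 1)) : dh l V f c a b = dh l V f c b a := by
  unfold dh
  rw [hh_symm]

lemma gr_cd (hf : ContDiffAt ℝ ∞ f y) : ContDiffAt ℝ ∞ (fun z => pt (f z) z) y := by
  have h3 : (fun z => pt (f z) z) = fun z => pt 0 z + f z •
      (EuclideanSpace.single (0 : Fin (n + 1)) (1 : ℝ) : E (n + 1)) := by
    funext z; exact KSN.Gr.pt_lin (f z) z
  rw [h3]
  exact (KSN.pt0_contDiff.contDiffAt).add (hf.smul contDiffAt_const)

lemma cd_gr {F : E (n + 1) → ℝ} (hF : ContDiffAt ℝ ∞ F (pt (f y) y)) (hf : ContDiffAt ℝ ∞ f y) :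
    ContDiffAt ℝ ∞ (fun z => F (pt (f z) z)) y :=
  ContDiffAt.comp (g := F) (f := fun z => pt (f z) z) y hF (gr_cd hf)

lemma pd_gr {F : E (n + 1) → ℝ} (hF : ContDiffAt ℝ ∞ F (pt (f y) y)) (hf : ContDiffAt ℝ ∞ f y)
    (i : Fin n) : pd i (fun z => F (pt (f z) z)) y =
      pd i.succ F (pt (f y) y) + pd i f y * pd 0 F (pt (f y) y) :=
  (KSN.Gr.dp_gr (hF.differentiableAt (by simp)) (hf.differentiableAt (by simp)) i).2

lemma spdf (hf : ContDiffAt ℝ ∞ f y) (i : Fin n) : Stmt.pd i f y = pd i f y :=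
  KSN.X2.stmt_pd' hf i

lemma tng_sum (hf : ContDiffAt ℝ ∞ f y) (F : Fin (n + 1) → Fin (n + 1) → ℝ) (i j : Fin n) :
    ∑ a, ∑ b, F a b * tng f i y a * tng f j y b = F i.succ j.succ + F 0 j.succ * pd i f y +
      F i.succ 0 * pd j f y + F 0 0 * (pd i f y * pd j f y) := by
  have h1 : ∀ a : Fin (n + 1), ∑ b, F a b * tng f i y a * tng f j y b =
      tng f i y a * (F a 0 * pd j f y + F a j.succ) := by
    intro a
    rw [Fin.sum_univ_succ]
    simp only [tng, Fin.cons_zero, Fin.cons_succ, spdf hf]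
    have h2 : ∑ x : Fin n, F a x.succ * (Fin.cons (pd i f y) (Pi.single i 1) : Fin (n + 1) → ℝ) a *
        Pi.single (M := fun _ => ℝ) j 1 x = F a j.succ *
        (Fin.cons (pd i f y) (Pi.single i 1) : Fin (n + 1) → ℝ) a := by
      rw [Finset.sum_eq_single j]
      · simp
      · intro b _ hb
        simp [hb]
      · simp
    rw [h2]
    ring
  simp only [h1]
  rw [Fin.sum_univ_succ]
  simp only [tng, Fin.cons_zero, Fin.cons_succ, spdf hf]
  have h2 : ∑ x : Fin n, Pi.single (M := fun _ => ℝ) i 1 x *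
      (F x.succ 0 * pd j f y + F x.succ j.succ) = F i.succ 0 * pd j f y + F i.succ j.succ := by
    rw [Finset.sum_eq_single i]
    · simp
    · intro b _ hb
      simp [hb]
    · simp
  rw [h2]
  ring

lemma con_sum (hf : ContDiffAt ℝ ∞ f y) (F : Fin (n + 1) → ℝ) :
    ∑ a, con f y a * F a = F 0 - ∑ k : Fin n, pd k f y * F k.succ := by
  rw [Fin.sum_univ_succ]
  simp only [con, Fin.cons_zero, Fin.cons_succ, spdf hf, one_mul, neg_mul,
    Finset.sum_neg_distrib]
  ring

/-- the induced metric -/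
lemma indG_ks (hf : ContDiffAt ℝ ∞ f y) (i j : Fin n) :
    indG (ksL l V) f y i j = kd i j + hp l V f i.succ j.succ y + (hp l V f 0 j.succ y * pd i f y +
      hp l V f i.succ 0 y * pd j f y + (hp l V f 0 0 y - 1) * (pd i f y * pd j f y)) := by
  unfold indG
  rw [tng_sum hf]
  have e : ∀ a b, ksL l V (pt (f y) y) a b = (if a = b then sgn a else 0) + hp l V f a b y :=
    fun _ _ => rfl
  simp only [e]
  rw [if_neg (Fin.succ_ne_zero j).symm, if_neg (Fin.succ_ne_zero i)]
  simp only [if_true, sgn0]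
  have e2 : (if i.succ = j.succ then sgn i.succ else 0) = kd i j := by
    unfold kd
    by_cases hij : i = j
    · subst hij
      rw [if_pos rfl, if_pos rfl, sgns]
    · rw [if_neg hij, if_neg (fun e => hij (Fin.succ_injective _ e))]
  rw [e2]
  ring

/-- the quantity under the root in the lapse -/
def ep (l : Fin (n + 1) → E (n + 1) → ℝ) (V : E (n + 1) → ℝ) (f : E n → ℝ) (y : E n) : ℝ :=
  (hp l V f 0 0 y + 2 * (∑ k : Fin n, pd k f y * hp l V f 0 k.succ y) +
    ∑ k : Fin n, pd k f y * ∑ j : Fin n, pd j f y * hp l V f k.succ j.succ y) -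
    ∑ k : Fin n, pd k f y * pd k f y

lemma lapse_ks (h : IsKS l V (pt (f y) y)) (hf : ContDiffAt ℝ ∞ f y) :
    lapse (ksL l V) f y = 1 / √(1 + ep l V f y) := by
  unfold lapse
  have e : ∑ a, ∑ b, Stmt.up (ksL l V) a b (pt (f y) y) * con f y a * con f y b =
      -(1 + ep l V f y) := by
    have e1 : ∀ a, ∑ b, Stmt.up (ksL l V) a b (pt (f y) y) * con f y a * con f y b =
        con f y a * ∑ b, con f y b * Stmt.up (ksL l V) a b (pt (f y) y) := by
      intro a
      rw [Finset.mul_sum]
      exact Finset.sum_congr rfl fun b _ => by ring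
    have e0 : ∑ a, ∑ b, Stmt.up (ksL l V) a b (pt (f y) y) * con f y a * con f y b =
        (Stmt.up (ksL l V) 0 0 (pt (f y) y) -
          ∑ x : Fin n, pd x f y * Stmt.up (ksL l V) 0 x.succ (pt (f y) y)) -
        ∑ k : Fin n, pd k f y * (Stmt.up (ksL l V) k.succ 0 (pt (f y) y) -
          ∑ x : Fin n, pd x f y * Stmt.up (ksL l V) k.succ x.succ (pt (f y) y)) := by
      rw [Finset.sum_congr rfl fun a _ => e1 a, con_sum hf]
      simp only [con_sum hf]
    rw [e0]
    simp only [up_ks h]
    have e2 : ∀ a b, hh l V a b (pt (f y) y) = hp l V f a b y := fun _ _ => rfl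
    simp only [e2, sgn0, sgns, if_true, (Fin.succ_ne_zero _).symm, Fin.succ_ne_zero, if_false]
    have e3 : ∀ k : Fin n, ∑ x : Fin n, pd x f y * ((if k.succ = x.succ then (1 : ℝ) else 0) -
        1 * 1 * hp l V f k.succ x.succ y) = pd k f y -
        ∑ j : Fin n, pd j f y * hp l V f k.succ j.succ y := by
      intro k
      simp only [mul_sub, Finset.sum_sub_distrib, one_mul, Fin.succ_inj, mul_ite, mul_one,
        mul_zero, Finset.sum_ite_eq, Finset.mem_univ, if_true]
    simp only [e3]
    unfold ep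
    have e4 : ∀ k : Fin n, hp l V f k.succ 0 y = hp l V f 0 k.succ y := fun k => by
      rw [hp_symm]
    simp only [e4]
    have e5 : ∑ x : Fin n, pd x f y * (0 - 1 * -1 * hp l V f 0 x.succ y -
        (pd x f y - ∑ j : Fin n, pd j f y * hp l V f x.succ j.succ y)) =
        (∑ x : Fin n, pd x f y * hp l V f 0 x.succ y) - (∑ x : Fin n, pd x f y * pd x f y) +
        ∑ x : Fin n, pd x f y * ∑ j : Fin n, pd j f y * hp l V f x.succ j.succ y := by
      rw [← Finset.sum_sub_distrib, ← Finset.sum_add_distrib]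
      exact Finset.sum_congr rfl fun x _ => by ring
    have e6 : ∑ x : Fin n, pd x f y * (0 - -1 * 1 * hp l V f 0 x.succ y) =
        ∑ x : Fin n, pd x f y * hp l V f 0 x.succ y :=
      Finset.sum_congr rfl fun x _ => by ring
    rw [e5, e6]
    ring
  rw [e, neg_neg]

/-- the connection part of the second fundamental form -/
def Xf (l : Fin (n + 1) → E (n + 1) → ℝ) (V : E (n + 1) → ℝ) (f : E n → ℝ) (a : Fin (n + 1))
    (i j : Fin n) (y : E n) : ℝ :=
  Stmt.chr (ksL l V) a i.succ j.succ (pt (f y) y) +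
    Stmt.chr (ksL l V) a 0 j.succ (pt (f y) y) * pd i f y +
    Stmt.chr (ksL l V) a i.succ 0 (pt (f y) y) * pd j f y +
    Stmt.chr (ksL l V) a 0 0 (pt (f y) y) * (pd i f y * pd j f y)

/-- the second fundamental form -/
lemma indK_ks (h : IsKS l V (pt (f y) y)) (hf : ContDiffAt ℝ ∞ f y) (i j : Fin n) :
    indK (ksL l V) f y i j = 1 / √(1 + ep l V f y) * (hs f i j y + (Xf l V f 0 i j y -
      ∑ k : Fin n, pd k f y * Xf l V f k.succ i j y)) := by
  unfold indK
  rw [lapse_ks h hf, KSN.stmt_pd2 hf]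
  have e : ∀ a, ∑ b, ∑ c, Stmt.chr (ksL l V) a b c (pt (f y) y) * tng f i y b * tng f j y c =
      Xf l V f a i j y := fun a => tng_sum hf _ i j
  simp only [e]
  rw [con_sum hf]

end Vale.Agent.P366.H474.L
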