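import Vale.Agent.P366.H474.L.A
import Vale.Agent.P366.H474.N.FarF

/-! Kerr-Schild metrics with a general null covector field, a general slice: orders of decay. -/

open MeasureTheory Metric Filter Topology Set
open scoped ContDiff ENNReal

noncomputable section
namespace Vale.Agent.P366.H474.L

open Vale.Agent.P366 (pd E sphM)
open Vale.Agent.P366.H353.N (kd hs)
open Vale.Agent.P366.KSN (BO far_open)
open Vale.Agent.P366.KSN.X5 (DP)
open Vale.Agent.P366.Kerr (pt sp indG indK lapse tng con sgn ksL IsKS)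
open Vale.Agent.P366.KSL (hh Up Zf)

variable {n : ℕ} {l : Fin (n + 1) → E (n + 1) → ℝ} {V : E (n + 1) → ℝ} {f : E n → ℝ}
  {D : Stmt.Exterior n} {R q a b : ℝ} {y : E n} {F F' : E n → ℝ}

/-- `F = O(r ^ (-a))` and `∂F = O(r ^ (-a-1))` -/
structure D1 (a : ℝ) (F : E n → ℝ) : Prop where
  val : BO a F
  der : ∀ k, BO (a + 1) (pd k F)
  dif : ∃ R : ℝ, ∀ y : E n, R < ‖y‖ → DifferentiableAt ℝ F y

namespace D1

lemma mul (h : D1 a F) (h' : D1 b F') : D1 (a + b) fun y => F y * F' y := by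
  obtain ⟨R, hR⟩ := h.dif
  obtain ⟨R', hR'⟩ := h'.dif
  refine ⟨h.val.mul h'.val, fun k => ?_, max R R', fun y hy =>
    (hR y ((le_max_left _ _).trans_lt hy)).mul (hR' y ((le_max_right _ _).trans_lt hy))⟩
  have h1 : BO (a + b + 1) fun y => pd k F y * F' y := by
    have := (h.der k).mul h'.val
    rwa [show a + 1 + b = a + b + 1 by ring] at this
  have h2 : BO (a + b + 1) fun y => F y * pd k F' y := by
    have := h.val.mul (h'.der k)
    rwa [show a + (b + 1) = a + b + 1 by ring] at this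
  refine (h1.add h2).congr (R := max R R') fun y hy => ?_
  exact ((DP.of (k := k) (hR y ((le_max_left _ _).trans_lt hy))).mul
    (DP.of (hR' y ((le_max_right _ _).trans_lt hy)))).2

lemma add (h : D1 a F) (h' : D1 a F') : D1 a fun y => F y + F' y := by
  obtain ⟨R, hR⟩ := h.dif
  obtain ⟨R', hR'⟩ := h'.dif
  refine ⟨h.val.add h'.val, fun k => ?_, max R R', fun y hy =>
    (hR y ((le_max_left _ _).trans_lt hy)).add (hR' y ((le_max_right _ _).trans_lt hy))⟩
  refine ((h.der k).add (h'.der k)).congr (R := max R R') fun y hy => ?_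
  exact ((DP.of (k := k) (hR y ((le_max_left _ _).trans_lt hy))).add
    (DP.of (hR' y ((le_max_right _ _).trans_lt hy)))).2

lemma mono (h : D1 a F) (hb : b ≤ a) : D1 b F :=
  ⟨h.val.mono hb, fun k => (h.der k).mono (by linarith only [hb]), h.dif⟩

lemma sub_one {c : ℝ} (h : D1 a F) (ha : 0 ≤ a) : D1 0 fun y => F y - c := by
  obtain ⟨R, hR⟩ := h.dif
  refine ⟨(h.val.mono ha).sub (BO.const c), fun k => ?_, R, fun y hy =>
    (hR y hy).sub (differentiableAt_const _)⟩
  refine ((h.der k).mono (by linarith only [ha])).congr (R := R) fun y hy => ?_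
  rw [((DP.of (k := k) (hR y hy)).sub (DP.const c)).2, sub_zero]

end D1

/-- the hypersurface far out -/
structure FarG (l : Fin (n + 1) → E (n + 1) → ℝ) (V : E (n + 1) → ℝ) (f : E n → ℝ)
    (D : Stmt.Exterior n) (R : ℝ) : Prop where
  ks : ∀ y : E n, R < ‖y‖ → IsKS l V (pt (f y) y)
  smf : ∀ y : E n, R < ‖y‖ → ContDiffAt ℝ ∞ f y
  hF : ∀ y : E n, R < ‖y‖ → 0 ≤ D.F y
  met : ∀ y : E n, R < ‖y‖ → ∀ i j, D.g y i j = indG (ksL l V) f y i j
  sff : ∀ y : E n, R < ‖y‖ → ∀ i j, D.K y i j = indK (ksL l V) f y i j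

/-- orders of decay along the hypersurface -/
structure Ord (l : Fin (n + 1) → E (n + 1) → ℝ) (V : E (n + 1) → ℝ) (f : E n → ℝ) (q : ℝ) :
    Prop where
  hq : 0 < q
  h : ∀ a b, BO q (hp l V f a b)
  dh : ∀ c a b, BO (q + 1) (dh l V f c a b)
  df : ∀ i, BO q (pd i f)
  d2f : ∀ i j, BO (q + 1) (hs f i j)

/-- the linear part of the Christoffel symbols -/
def CL (l : Fin (n + 1) → E (n + 1) → ℝ) (V : E (n + 1) → ℝ) (f : E n → ℝ)
    (a b c : Fin (n + 1)) (y : E n) : ℝ :=
  sgn a * (dh l V f b c a y + dh l V f c b a y - dh l V f a b c y) / 2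

/-- the linear part of `K` -/
def Mf (l : Fin (n + 1) → E (n + 1) → ℝ) (V : E (n + 1) → ℝ) (f : E n → ℝ)
    (i j : Fin n) (y : E n) : ℝ := hs f i j y + CL l V f 0 i.succ j.succ y

/-- the linear part of the momentum tensor -/
def Pf (l : Fin (n + 1) → E (n + 1) → ℝ) (V : E (n + 1) → ℝ) (f : E n → ℝ)
    (i j : Fin n) (y : E n) : ℝ := Mf l V f i j y - (∑ k, Mf l V f k k y) * kd i j

namespace FarG

variable (h : FarG l V f D R) (o : Ord l V f q)
include h

lemma pd_hp (hy : R < ‖y‖) (k : Fin n) (a b : Fin (n + 1)) :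
    pd k (hp l V f a b) y = dh l V f k.succ a b y + pd k f y * dh l V f 0 a b y :=
  pd_gr (hh_cd (h.ks y hy) a b) (h.smf y hy) k

lemma hp_cd (hy : R < ‖y‖) (a b : Fin (n + 1)) : ContDiffAt ℝ ∞ (hp l V f a b) y :=
  cd_gr (hh_cd (h.ks y hy) a b) (h.smf y hy)

lemma dh_cd (hy : R < ‖y‖) (c a b : Fin (n + 1)) : ContDiffAt ℝ ∞ (dh l V f c a b) y :=
  cd_gr (KSN.pd_contDiffAt (hh_cd (h.ks y hy) a b) c) (h.smf y hy)

include o

/-- the derivative along the hypersurface -/
lemma BO_pd_hp_sub (k : Fin n) (a b : Fin (n + 1)) :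
    BO (2 * q + 1) fun y => pd k (hp l V f a b) y - dh l V f k.succ a b y := by
  have h1 := (o.df k).mul (o.dh 0 a b)
  rw [show q + (q + 1) = 2 * q + 1 by ring] at h1
  refine h1.congr (R := R) fun y hy => ?_
  rw [h.pd_hp hy]
  ring

lemma D1_hp (a b : Fin (n + 1)) : D1 q (hp l V f a b) := by
  refine ⟨o.h a b, fun k => ?_, R, fun y hy => (h.hp_cd hy a b).differentiableAt (by simp)⟩
  have hq := o.hq
  have h1 := ((h.BO_pd_hp_sub o k a b).mono (show q + 1 ≤ 2 * q + 1 by linarith only [hq])).add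
    (o.dh k.succ a b)
  exact h1.congr (R := R) fun y _ => by ring

lemma D1_df (i : Fin n) : D1 q (pd i f) :=
  ⟨o.df i, fun k => o.d2f k i, R, fun y hy =>
    (KSN.pd_contDiffAt (h.smf y hy) i).differentiableAt (by simp)⟩

/-- the quadratic part of the metric -/
lemma D1_quad (i j : Fin n) : D1 (2 * q) fun y => hp l V f 0 j.succ y * pd i f y +
      hp l V f i.succ 0 y * pd j f y + (hp l V f 0 0 y - 1) * (pd i f y * pd j f y) := by
  have e : q + q = 2 * q := by ring
  have h1 := (h.D1_hp o 0 j.succ).mul (h.D1_df o i)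
  have h2 := (h.D1_hp o i.succ 0).mul (h.D1_df o j)
  have h3 := ((h.D1_hp o 0 0).sub_one (c := 1) o.hq.le).mul ((h.D1_df o i).mul (h.D1_df o j))
  rw [zero_add] at h3
  rw [e] at h1 h2 h3
  exact (h1.add h2).add h3

omit o in
lemma g_eq (hy : R < ‖y‖) (i j : Fin n) : D.g y i j = kd i j + hp l V f i.succ j.succ y +
    (hp l V f 0 j.succ y * pd i f y + hp l V f i.succ 0 y * pd j f y +
      (hp l V f 0 0 y - 1) * (pd i f y * pd j f y)) := by
  rw [h.met y hy, indG_ks (h.smf y hy)]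

lemma BO_g (i j : Fin n) : BO q fun y => D.g y i j - kd i j := by
  have hq := o.hq
  have h1 := (o.h i.succ j.succ).add
    ((h.D1_quad o i j).val.mono (show q ≤ 2 * q by linarith only [hq]))
  exact h1.congr (R := R) fun y hy => by rw [h.g_eq hy]; ring

/-- the derivatives of the metric -/
lemma BO_dg_sub (k i j : Fin n) : BO (2 * q + 1) fun y =>
    Stmt.pd k (fun z => D.g z i j) y - dh l V f k.succ i.succ j.succ y := by
  have hQ := h.D1_quad o i j
  obtain ⟨R', hR'⟩ := hQ.dif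
  refine ((h.BO_pd_hp_sub o k i.succ j.succ).add (hQ.der k)).congr (R := max R R')
    fun y hy => ?_
  have hy1 : R < ‖y‖ := (le_max_left _ _).trans_lt hy
  have hy2 : R' < ‖y‖ := (le_max_right _ _).trans_lt hy
  have d : DifferentiableAt ℝ (fun z => D.g z i j) y :=
    ((D.smooth i j).1.contDiffAt).differentiableAt (by simp)
  have h1 : (fun z => D.g z i j) =ᶠ[𝓝 y] fun y => kd i j + hp l V f i.succ j.succ y +
      (hp l V f 0 j.succ y * pd i f y + hp l V f i.succ 0 y * pd j f y +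
        (hp l V f 0 0 y - 1) * (pd i f y * pd j f y)) := by
    filter_upwards [far_open hy1] with z hz
    rw [h.g_eq hz]
  rw [KSN.X2.stmt_pd d, Vale.Agent.P366.pd_congr h1 k,
    (((DP.const (k := k) (kd i j)).add (DP.of ((h.hp_cd hy1 _ _).differentiableAt
      (by simp)))).add (DP.of (hR' y hy2))).2]
  ring

/-! ### the Christoffel symbols and `K` -/

omit h in
lemma BO_dsum (a b c : Fin (n + 1)) :
    BO (q + 1) fun y => dh l V f b c a y + dh l V f c b a y - dh l V f a b c y :=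
  ((o.dh b c a).add (o.dh c b a)).sub (o.dh a b c)

omit h in
lemma BO_CL (a b c : Fin (n + 1)) : BO (q + 1) (CL l V f a b c) :=
  ((BO_dsum o a b c).cmul (sgn a)).div_const 2

lemma BO_chr_sub (a b c : Fin (n + 1)) : BO (2 * q + 1) fun y =>
    Stmt.chr (ksL l V) a b c (pt (f y) y) - CL l V f a b c y := by
  have e : q + (q + 1) = 2 * q + 1 := by ring
  have h1 : BO (2 * q + 1) fun y => ∑ d, sgn a * sgn d * (hp l V f a d y *
      (dh l V f b c d y + dh l V f c b d y - dh l V f d b c y)) :=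
    BO.sum _ fun d => by
      rw [← e]
      exact ((o.h a d).mul (BO_dsum o d b c)).cmul (sgn a * sgn d)
  refine (h1.neg.div_const 2).congr (R := R) fun y hy => ?_
  rw [chr_ks (h.ks y hy)]
  unfold CL hp dh
  have e2 : ∀ d : Fin (n + 1), sgn a * sgn d * hh l V a d (pt (f y) y) *
      (pd b (hh l V c d) (pt (f y) y) + pd c (hh l V b d) (pt (f y) y) -
        pd d (hh l V b c) (pt (f y) y)) = sgn a * sgn d * (hh l V a d (pt (f y) y) *
      (pd b (hh l V c d) (pt (f y) y) + pd c (hh l V b d) (pt (f y) y) -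
        pd d (hh l V b c) (pt (f y) y))) := fun d => by ring
  simp only [e2]
  ring

lemma BO_chr (a b c : Fin (n + 1)) : BO (q + 1) fun y =>
    Stmt.chr (ksL l V) a b c (pt (f y) y) := by
  have hq := o.hq
  exact (((h.BO_chr_sub o a b c).mono (show q + 1 ≤ 2 * q + 1 by linarith only [hq])).add
    (BO_CL o a b c)).congr (R := R) fun y _ => by ring

lemma BO_Xf_sub (a : Fin (n + 1)) (i j : Fin n) : BO (2 * q + 1) fun y =>
    Xf l V f a i j y - CL l V f a i.succ j.succ y := by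
  have e : q + 1 + q = 2 * q + 1 := by ring
  have hq := o.hq
  have h1 := (h.BO_chr o a 0 j.succ).mul (o.df i)
  have h2 := (h.BO_chr o a i.succ 0).mul (o.df j)
  have h3 := (h.BO_chr o a 0 0).mul ((o.df i).mul ((o.df j).mono hq.le))
  rw [add_zero] at h3
  rw [e] at h1 h2 h3
  refine ((h.BO_chr_sub o a i.succ j.succ).add ((h1.add h2).add h3)).congr (R := R)
    fun y _ => ?_
  unfold Xf
  ring

lemma BO_Xf (a : Fin (n + 1)) (i j : Fin n) : BO (q + 1) (Xf l V f a i j) := by
  have hq := o.hq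
  exact (((h.BO_Xf_sub o a i j).mono (show q + 1 ≤ 2 * q + 1 by linarith only [hq])).add
    (BO_CL o a i.succ j.succ)).congr (R := R) fun y _ => by ring

omit h in
lemma BO_ep : BO q (ep l V f) := by
  have hq := o.hq
  have h1 : BO q fun y => 2 * (∑ k : Fin n, pd k f y * hp l V f 0 k.succ y) :=
    (BO.sum _ fun k => ((o.df k).mono hq.le).bmul (o.h 0 k.succ)).cmul 2
  have h2 : BO q fun y => ∑ k : Fin n, pd k f y * ∑ j : Fin n, pd j f y *
      hp l V f k.succ j.succ y :=
    BO.sum _ fun k => ((o.df k).mono hq.le).bmul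
      (BO.sum _ fun j => ((o.df j).mono hq.le).bmul (o.h k.succ j.succ))
  have h3 : BO q fun y => ∑ k : Fin n, pd k f y * pd k f y :=
    BO.sum _ fun k => ((o.df k).mono hq.le).bmul (o.df k)
  exact (((o.h 0 0).add h1).add h2).sub h3

/-- `K` against its linear part -/
lemma BO_K_sub (i j : Fin n) : BO (2 * q + 1) fun y => D.K y i j - Mf l V f i j y := by
  have e : q + (q + 1) = 2 * q + 1 := by ring
  have hq := o.hq
  have h0 : BO (2 * q + 1) fun y => ∑ k : Fin n, pd k f y * Xf l V f k.succ i j y :=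
    BO.sum _ fun k => by rw [← e]; exact (o.df k).mul (h.BO_Xf o k.succ i j)
  have hY : BO (q + 1) fun y => hs f i j y + (Xf l V f 0 i j y -
      ∑ k : Fin n, pd k f y * Xf l V f k.succ i j y) :=
    (o.d2f i j).add ((h.BO_Xf o 0 i j).sub
      (h0.mono (show q + 1 ≤ 2 * q + 1 by linarith only [hq])))
  have h1 : BO (2 * q + 1) fun y => (1 / √(1 + ep l V f y) - 1) * (hs f i j y +
      (Xf l V f 0 i j y - ∑ k : Fin n, pd k f y * Xf l V f k.succ i j y)) := by
    rw [← e]
    exact (BO.inv_sqrt_sub o.hq (BO_ep o)).mul hY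
  refine (h1.add ((h.BO_Xf_sub o 0 i j).sub h0)).congr (R := R) fun y hy => ?_
  rw [h.sff y hy, indK_ks (h.ks y hy) (h.smf y hy)]
  unfold Mf
  ring

omit h in
lemma BO_Mf (i j : Fin n) : BO (q + 1) (Mf l V f i j) :=
  (o.d2f i j).add (BO_CL o 0 i.succ j.succ)

lemma BO_K (i j : Fin n) : BO (q + 1) fun y => D.K y i j := by
  have hq := o.hq
  exact (((h.BO_K_sub o i j).mono (show q + 1 ≤ 2 * q + 1 by linarith only [hq])).add
    (BO_Mf o i j)).congr (R := R) fun y _ => by ring

end FarG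

/-! ### the inverse of a matrix near the identity -/

lemma abs_inv_sub_le {A : Matrix (Fin n) (Fin n) ℝ} {m : ℝ} (hA : IsUnit A.det)
    (h : ∀ i j, |A i j - kd i j| ≤ m) (hm : 2 * (n * m) ≤ 1) (i j : Fin n) :
    |A⁻¹ i j - kd i j| ≤ 2 * n * m := by
  have hm0 : 0 ≤ m := (abs_nonneg _).trans (h i j)
  have hn0 : (0 : ℝ) ≤ n := Nat.cast_nonneg n
  have key : ∀ i j, A⁻¹ i j - kd i j = - ∑ k, (A i k - kd i k) * A⁻¹ k j := by
    intro i j
    have h1 : (A * A⁻¹) i j = (1 : Matrix (Fin n) (Fin n) ℝ) i j := by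
      rw [Matrix.mul_nonsing_inv A hA]
    rw [Matrix.mul_apply, Matrix.one_apply] at h1
    have h2 : ∑ k, kd i k * A⁻¹ k j = A⁻¹ i j := by simp [kd]
    simp only [sub_mul, Finset.sum_sub_distrib, h1, h2]
    unfold kd
    ring
  set S : ℝ := ∑ i, ∑ j, |A⁻¹ i j| with hS
  have hk : ∀ i j : Fin n, |kd i j| = kd i j := by
    intro i j
    unfold kd
    split_ifs <;> simp
  have hcol : ∀ i j, |∑ k, (A i k - kd i k) * A⁻¹ k j| ≤ m * ∑ k, |A⁻¹ k j| := by
    intro i j
    refine (Finset.abs_sum_le_sum_abs _ _).trans ?_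
    rw [Finset.mul_sum]
    refine Finset.sum_le_sum fun k _ => ?_
    rw [abs_mul]
    exact mul_le_mul_of_nonneg_right (h i k) (abs_nonneg _)
  have hS0 : 0 ≤ S := Finset.sum_nonneg fun i _ => Finset.sum_nonneg fun j _ => abs_nonneg _
  have hS1 : S ≤ n + n * (m * S) := by
    have h1 : ∀ i j, |A⁻¹ i j| ≤ kd i j + m * ∑ k, |A⁻¹ k j| := by
      intro i j
      have e : A⁻¹ i j = kd i j + (A⁻¹ i j - kd i j) := by ring
      rw [e, key i j]
      refine (abs_add_le _ _).trans ?_
      rw [hk, abs_neg]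
      exact add_le_add le_rfl (hcol i j)
    calc S ≤ ∑ i, ∑ j, (kd i j + m * ∑ k, |A⁻¹ k j|) :=
          Finset.sum_le_sum fun i _ => Finset.sum_le_sum fun j _ => h1 i j
      _ = n + n * (m * S) := by
          simp only [Finset.sum_add_distrib, ← Finset.mul_sum]
          have e1 : ∑ i : Fin n, ∑ j, kd i j = n := by simp [kd]
          have e2 : ∑ j, ∑ k, |A⁻¹ k j| = S := by rw [hS, Finset.sum_comm]
          rw [e1, e2]
          simp
          ring
  have hS2 : S ≤ 2 * n := by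
    have h2 : n * (m * S) ≤ S / 2 := by
      have := mul_le_mul_of_nonneg_right hm hS0
      linarith only [this]
    linarith only [hS1, h2]
  rw [key, abs_neg]
  refine (hcol i j).trans ?_
  have h3 : ∑ k, |A⁻¹ k j| ≤ S := by
    rw [hS, Finset.sum_comm]
    exact Finset.single_le_sum (f := fun j => ∑ k, |A⁻¹ k j|)
      (fun j _ => Finset.sum_nonneg fun k _ => abs_nonneg _) (Finset.mem_univ j)
  have h4 := mul_le_mul_of_nonneg_left (h3.trans hS2) hm0
  linarith only [h4]

namespace FarG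

variable (h : FarG l V f D R) (o : Ord l V f q)
include h

lemma det_ne (hy : R < ‖y‖) : (Stmt.mat D.g y).det ≠ 0 := (D.pos y (h.hF y hy)).det_pos.ne'

include o

lemma BO_up (i j : Fin n) : BO q fun y => Stmt.up D.g i j y - kd i j := by
  have h1 : BO q fun y => ∑ i, ∑ j, |D.g y i j - kd i j| :=
    BO.sum _ fun i => BO.sum _ fun j => (h.BO_g o i j).le (R := 0) fun y _ => by rw [abs_abs]
  have hn0 : (0 : ℝ) < 2 * (n + 1) := by positivity
  obtain ⟨R1, hR1, hs1⟩ := h1.small o.hq (show 0 < 1 / (2 * ((n : ℝ) + 1)) by positivity)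
  refine (h1.cmul (2 * n)).le (R := max R R1) fun y hy => ?_
  have hy1 : R < ‖y‖ := (le_max_left _ _).trans_lt hy
  have hy2 : R1 < ‖y‖ := (le_max_right _ _).trans_lt hy
  have hb := hs1 y hy2
  have hpos : 0 ≤ ∑ i, ∑ j, |D.g y i j - kd i j| :=
    Finset.sum_nonneg fun i _ => Finset.sum_nonneg fun j _ => abs_nonneg _
  rw [abs_of_nonneg hpos] at hb
  rw [abs_mul, abs_of_nonneg hpos, abs_of_nonneg (by positivity : (0:ℝ) ≤ 2 * n)]
  have hle : ∀ i j, |D.g y i j - kd i j| ≤ ∑ i, ∑ j, |D.g y i j - kd i j| := by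
    intro i j
    have a1 : |D.g y i j - kd i j| ≤ ∑ j, |D.g y i j - kd i j| :=
      Finset.single_le_sum (f := fun j => |D.g y i j - kd i j|) (fun j _ => abs_nonneg _)
        (Finset.mem_univ j)
    exact a1.trans (Finset.single_le_sum (f := fun i => ∑ j, |D.g y i j - kd i j|)
        (fun i _ => Finset.sum_nonneg fun j _ => abs_nonneg _) (Finset.mem_univ i))
  refine abs_inv_sub_le (A := Stmt.mat D.g y) (isUnit_iff_ne_zero.2 (h.det_ne hy1)) hle ?_ i j
  have hn1 : (0 : ℝ) ≤ n := Nat.cast_nonneg n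
  have h2 : 2 * (n * ∑ i, ∑ j, |D.g y i j - kd i j|) ≤ 2 * (n * (1 / (2 * ((n : ℝ) + 1)))) := by
    have := mul_le_mul_of_nonneg_left hb hn1
    linarith only [this]
  refine h2.trans ?_
  have h3 : 2 * ((n : ℝ) * (1 / (2 * ((n : ℝ) + 1)))) = n / (n + 1) := by field_simp
  rw [h3, div_le_one (by positivity)]
  linarith

lemma BO_tr_sub : BO (2 * q + 1) fun y => Stmt.tr D.g D.K y - ∑ k, D.K y k k := by
  have e : q + (q + 1) = 2 * q + 1 := by ring
  have h1 : BO (2 * q + 1) fun y => ∑ i, ∑ j, (Stmt.up D.g i j y - kd i j) * D.K y i j :=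
    BO.sum _ fun i => BO.sum _ fun j => by
      rw [← e]; exact (h.BO_up o i j).mul (h.BO_K o i j)
  refine h1.congr (R := R) fun y _ => ?_
  unfold Stmt.tr
  simp only [sub_mul, Finset.sum_sub_distrib]
  congr 1
  exact Finset.sum_congr rfl fun i _ => by simp [kd]

/-- the momentum tensor against its linear part -/
lemma BO_momT_sub (i j : Fin n) : BO (2 * q + 1) fun y =>
    Stmt.momT D.g D.K y i j - Pf l V f i j y := by
  have e : q + 1 + q = 2 * q + 1 := by ring
  have hq := o.hq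
  have ht : BO (q + 1) fun y => Stmt.tr D.g D.K y :=
    (((h.BO_tr_sub o).mono (show q + 1 ≤ 2 * q + 1 by linarith only [hq])).add
      (BO.sum _ fun k => h.BO_K o k k)).congr (R := R) fun y _ => by ring
  have h1 : BO (2 * q + 1) fun y => Stmt.tr D.g D.K y * (D.g y i j - kd i j) := by
    rw [← e]; exact ht.mul (h.BO_g o i j)
  have h2 : BO (2 * q + 1) fun y => (Stmt.tr D.g D.K y - ∑ k, D.K y k k) * kd i j :=
    (h.BO_tr_sub o).mulb (BO.const _)
  have h3 : BO (2 * q + 1) fun y => (∑ k, (D.K y k k - Mf l V f k k y)) * kd i j :=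
    (BO.sum _ fun k => h.BO_K_sub o k k).mulb (BO.const _)
  refine ((((h.BO_K_sub o i j).sub h1).sub h2).sub h3).congr (R := R) fun y _ => ?_
  unfold Stmt.momT Pf
  rw [Finset.sum_sub_distrib]
  ring

omit h in
lemma BO_Up (a c b : Fin (n + 1)) : BO (q + 1) fun y => Up l V a c b (pt (f y) y) := by
  have h1 : BO (q + 1) fun y => sgn a * sgn c * dh l V f a c b y := (o.dh a c b).cmul _
  have h2 : BO (q + 1) fun y => sgn a * sgn c * dh l V f c a b y := (o.dh c a b).cmul _
  have h3 : BO (q + 1) fun y => kd a b * (∑ d, sgn c * sgn d * dh l V f d c d y) :=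
    (BO.sum _ fun d => (o.dh d c d).cmul _).cmul _
  have h4 : BO (q + 1) fun y => kd c b * (∑ d, sgn a * sgn d * dh l V f d a d y) :=
    (BO.sum _ fun d => (o.dh d a d).cmul _).cmul _
  exact (((h1.sub h2).sub h3).add h4).div_const 2

omit h in
/-- the flux field of the hypersurface against its value for a constant `f` -/
lemma BO_Zf_sub (b : Fin (n + 1)) (i : Fin n) : BO (2 * q + 1) fun y =>
    Zf l V f b i y - Up l V 0 i.succ b (pt (f y) y) := by
  have e : q + (q + 1) = 2 * q + 1 := by ring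
  have h1 : BO (2 * q + 1) fun y => ∑ j : Fin n, pd j f y *
      Up l V j.succ i.succ b (pt (f y) y) := BO.sum _ fun j => by
    rw [← e]; exact (o.df j).mul (BO_Up o j.succ i.succ b)
  refine h1.neg.congr (R := 0) fun y _ => ?_
  unfold Zf
  ring

end FarG

end Vale.Agent.P366.H474.L
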